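import Mathlib

/-!
# S0170, package W2 (pure-math part): rational approximation of `exp (-y)` and the closed form of
`Real.smoothTransition` at rational points of `(0, 1)`.
-/

set_option autoImplicit false

namespace Crest.Agent.Helper4

open Finset

/-- Tail bound for the exponential series: for `0 ≤ y`, `2 * y ≤ M + 1`,
`exp y - ∑_{k<M} y^k/k! ≤ 2 * y^M / M!`. -/
lemma exp_sub_sum_le (y : ℝ) (hy : 0 ≤ y) (M : ℕ) (hM : y / (M + 1 : ℝ) ≤ 1 / 2) :
    Real.exp y - ∑ k ∈ range M, y ^ k / (k.factorial : ℝ) ≤ y ^ M / (M.factorial : ℝ) * 2 := by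
  have h := Complex.exp_bound' (x := (y : ℂ)) (n := M) (by
    rw [Complex.norm_real, Real.norm_eq_abs, abs_of_nonneg hy]
    simpa using hM)
  have e1 : Complex.exp (y : ℂ) - ∑ m ∈ range M, (y : ℂ) ^ m / (m.factorial : ℂ)
      = ((Real.exp y - ∑ m ∈ range M, y ^ m / (m.factorial : ℝ) : ℝ) : ℂ) := by
    push_cast
    rfl
  rw [e1, Complex.norm_real, Real.norm_eq_abs, Complex.norm_real, Real.norm_eq_abs,
    abs_of_nonneg hy] at h
  exact (le_abs_self _).trans h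

/-- `y^M / M! ≤ (1/2)^M` when `6 * y ≤ M`. -/
lemma pow_div_factorial_le_half_pow (y : ℝ) (hy : 0 ≤ y) (M : ℕ) (hM : 6 * y ≤ M) :
    y ^ M / (M.factorial : ℝ) ≤ (1 / 2 : ℝ) ^ M := by
  rcases Nat.eq_zero_or_pos M with rfl | hMpos
  · simp
  have hMr : (0 : ℝ) < M := by exact_mod_cast hMpos
  have h1 : (M : ℝ) ^ M / (M.factorial : ℝ) ≤ Real.exp M :=
    Real.pow_div_factorial_le_exp (M : ℝ) hMr.le M
  have h2 : Real.exp (M : ℝ) ≤ 3 ^ M := by
    have : Real.exp (M : ℝ) = Real.exp 1 ^ M := by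
      rw [← Real.exp_nat_mul]; simp
    rw [this]
    exact pow_le_pow_left₀ (Real.exp_pos 1).le Real.exp_one_lt_three.le M
  have hfac : (0 : ℝ) < (M.factorial : ℝ) := by exact_mod_cast Nat.factorial_pos M
  have h3 : y ^ M ≤ ((M : ℝ) / 6) ^ M := pow_le_pow_left₀ hy (by linarith) M
  calc y ^ M / (M.factorial : ℝ) ≤ ((M : ℝ) / 6) ^ M / (M.factorial : ℝ) := by gcongr
    _ = (1 / 6 : ℝ) ^ M * ((M : ℝ) ^ M / (M.factorial : ℝ)) := by
        rw [div_pow, div_pow, one_pow]; field_simp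
    _ ≤ (1 / 6 : ℝ) ^ M * 3 ^ M := by gcongr; exact h1.trans h2
    _ = (1 / 2 : ℝ) ^ M := by rw [← mul_pow]; norm_num

lemma half_pow_le (n : ℕ) : (1 / 2 : ℝ) ^ n ≤ 1 / ((n : ℝ) + 1) := by
  have h : ((n : ℝ) + 1) ≤ 2 ^ n := by
    have := Nat.lt_two_pow_self (n := n)
    have h2 : n + 1 ≤ 2 ^ n := this
    exact_mod_cast h2
  rw [one_div, inv_pow, one_div]
  exact inv_anti₀ (by positivity) h

/-- **W2 pure-math statement 1** (exact PLAN shape). -/
theorem exp_neg_approx (y : ℚ) (hy : 0 ≤ y) (n M : ℕ) (hM : 6 * y.num.natAbs + n + 3 ≤ M) :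
    |Real.exp (-(y:ℝ)) - ((1 / ∑ k ∈ Finset.range M, y ^ k / (k.factorial : ℚ) : ℚ) : ℝ)|
      ≤ 1 / (4 * ((n:ℝ) + 1)) := by
  have hyR : (0 : ℝ) ≤ (y : ℝ) := by exact_mod_cast hy
  -- `y ≤ y.num.natAbs`
  have hyN : (y : ℝ) ≤ (y.num.natAbs : ℝ) := by
    have h1 : y ≤ (y.num.natAbs : ℚ) := by
      have hnum : 0 ≤ y.num := Rat.num_nonneg.mpr hy
      have h2 : ((y.num.natAbs : ℕ) : ℚ) = (y.num : ℚ) := by
        have h3 : ((y.num.natAbs : ℕ) : ℤ) = y.num := by omega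
        have h4 : (((y.num.natAbs : ℕ) : ℤ) : ℚ) = ((y.num : ℤ) : ℚ) := by rw [h3]
        simpa using h4
      rw [h2]
      have hden : (1 : ℚ) ≤ (y.den : ℚ) := by exact_mod_cast y.den_pos
      have hq := Rat.num_div_den y
      have hnumq : (0 : ℚ) ≤ (y.num : ℚ) := by exact_mod_cast hnum
      calc y = (y.num : ℚ) / (y.den : ℚ) := hq.symm
        _ ≤ (y.num : ℚ) / 1 := by gcongr
        _ = (y.num : ℚ) := by simp
    exact_mod_cast h1
  have hMR : 6 * (y.num.natAbs : ℝ) + n + 3 ≤ (M : ℝ) := by exact_mod_cast hM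
  have hnR : (0 : ℝ) ≤ (n : ℝ) := Nat.cast_nonneg n
  set S : ℝ := ∑ k ∈ range M, (y : ℝ) ^ k / (k.factorial : ℝ) with hS
  have hcast : ((1 / ∑ k ∈ Finset.range M, y ^ k / (k.factorial : ℚ) : ℚ) : ℝ) = 1 / S := by
    push_cast
    rfl
  rw [hcast]
  have hMpos : 0 < M := by omega
  have hS1 : 1 ≤ S := by
    have : ∑ k ∈ range 1, (y : ℝ) ^ k / (k.factorial : ℝ) ≤ S := by
      apply Finset.sum_le_sum_of_subset_of_nonneg
      · intro k hk
        simp only [mem_range] at hk ⊢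
        omega
      · intro k _ _
        positivity
    simpa using this
  have hSle : S ≤ Real.exp y := Real.sum_le_exp_of_nonneg hyR M
  have htail : Real.exp y - S ≤ (y : ℝ) ^ M / (M.factorial : ℝ) * 2 := by
    apply exp_sub_sum_le _ hyR
    rw [div_le_iff₀ (by positivity)]
    linarith
  have hpow : (y : ℝ) ^ M / (M.factorial : ℝ) ≤ (1 / 2 : ℝ) ^ M :=
    pow_div_factorial_le_half_pow _ hyR M (by linarith)
  have hpow2 : (1 / 2 : ℝ) ^ M ≤ (1 / 2 : ℝ) ^ (n + 3) :=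
    pow_le_pow_of_le_one (by norm_num) (by norm_num) (by omega)
  have hpow3 : (1 / 2 : ℝ) ^ (n + 3) ≤ 1 / (8 * ((n : ℝ) + 1)) := by
    have := half_pow_le n
    rw [pow_add]
    calc (1 / 2 : ℝ) ^ n * (1 / 2) ^ 3 ≤ 1 / ((n : ℝ) + 1) * (1 / 2) ^ 3 := by gcongr
      _ = 1 / (8 * ((n : ℝ) + 1)) := by field_simp; norm_num
  have hE : (1 : ℝ) ≤ Real.exp y := Real.one_le_exp hyR
  have hSpos : 0 < S := by linarith
  have hEpos : 0 < Real.exp (y : ℝ) := Real.exp_pos _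
  have hdiff : 1 / S - Real.exp (-(y : ℝ)) = (Real.exp y - S) / (S * Real.exp y) := by
    rw [Real.exp_neg]; field_simp
  have hnn : 0 ≤ 1 / S - Real.exp (-(y : ℝ)) := by
    rw [hdiff]
    exact div_nonneg (by linarith) (by positivity)
  rw [abs_sub_comm, abs_of_nonneg hnn, hdiff]
  have hden : 1 ≤ S * Real.exp y := by nlinarith
  calc (Real.exp y - S) / (S * Real.exp y) ≤ (Real.exp y - S) / 1 := by
        apply div_le_div_of_nonneg_left (by linarith) (by norm_num) hden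
    _ = Real.exp y - S := by simp
    _ ≤ (y : ℝ) ^ M / (M.factorial : ℝ) * 2 := htail
    _ ≤ 1 / (8 * ((n : ℝ) + 1)) * 2 :=
        mul_le_mul_of_nonneg_right (hpow.trans (hpow2.trans hpow3)) (by norm_num)
    _ = 1 / (4 * ((n : ℝ) + 1)) := by field_simp; norm_num

/-- Closed form of `Real.smoothTransition` on `(0, 1)`. -/
theorem smoothTransition_eq_of_mem_Ioo (x : ℝ) (h0 : 0 < x) (h1 : x < 1) :
    Real.smoothTransition x = 1 / (1 + Real.exp (1 / x - 1 / (1 - x))) := by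
  have h1' : 0 < 1 - x := by linarith
  unfold Real.smoothTransition
  rw [expNegInvGlue, expNegInvGlue, if_neg (not_le.mpr h0), if_neg (not_le.mpr h1')]
  have e : Real.exp (1 / x - 1 / (1 - x)) = Real.exp (-(1 - x)⁻¹) / Real.exp (-x⁻¹) := by
    rw [← Real.exp_sub]
    congr 1
    rw [one_div, one_div]
    ring
  rw [e]
  have hp : 0 < Real.exp (-x⁻¹) := Real.exp_pos _
  have hq : 0 < Real.exp (-(1 - x)⁻¹) := Real.exp_pos _
  field_simp

/-- **W2 pure-math statement 2** (exact PLAN shape). -/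
theorem smoothTransition_rat (r : ℚ) (h0 : 0 < r) (h1 : r < 1) :
    Real.smoothTransition r = 1 / (1 + Real.exp ((1 / r - 1 / (1 - r) : ℚ))) := by
  have h0' : (0 : ℝ) < (r : ℝ) := by exact_mod_cast h0
  have h1' : (r : ℝ) < 1 := by exact_mod_cast h1
  rw [smoothTransition_eq_of_mem_Ioo _ h0' h1']
  push_cast
  rfl

end Crest.Agent.Helper4
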