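import Mathlib
import Crest.Agent.BoxFlow.Defs

/-!
# S0170, package W4 (pure Gevrey side): closure properties of `GevreyBound`

`GevreyBound f a c : ∀ k x, |f^(k) x| ≤ a * c^k * (k!)^3`.
-/

set_option autoImplicit false

open scoped ContDiff
open Crest.Agent.BoxFlow

namespace Crest.Agent.Helper4

/-- Smooth functions are `C^k` at every point, for every natural `k`. -/
lemma contDiffAt_nat {f : ℝ → ℝ} (hf : ContDiff ℝ ∞ f) (k : ℕ) (x : ℝ) : ContDiffAt ℝ k f x :=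
  (hf.of_le (by exact_mod_cast le_top)).contDiffAt

/-- `GevreyBound` is monotone in both constants. -/
theorem gevreyBound_mono {f : ℝ → ℝ} {a c a' c' : ℕ} (h : GevreyBound f a c) (ha : a ≤ a')
    (hc : c ≤ c') : GevreyBound f a' c' := by
  intro k x
  refine (h k x).trans ?_
  have h1 : (a : ℝ) ≤ a' := by exact_mod_cast ha
  have h2 : (c : ℝ) ≤ c' := by exact_mod_cast hc
  gcongr

/-- Two Gevrey bounds can be put on common constants. -/
lemma gevreyBound_common {f g : ℝ → ℝ} {a c b c' : ℕ} (hf : GevreyBound f a c)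
    (hg : GevreyBound g b c') :
    GevreyBound f a (max (max c c') 1) ∧ GevreyBound g b (max (max c c') 1) :=
  ⟨gevreyBound_mono hf le_rfl ((le_max_left _ _).trans (le_max_left _ _)),
   gevreyBound_mono hg le_rfl ((le_max_right _ _).trans (le_max_left _ _))⟩

theorem gevrey_const (q : ℚ) : ∃ a c : ℕ, GevreyBound (fun _ => (q : ℝ)) a c := by
  refine ⟨⌈|(q : ℝ)|⌉₊, 1, fun k x => ?_⟩
  rw [iteratedDeriv_const]
  split_ifs with h
  · subst h
    simpa using Nat.le_ceil (|(q : ℝ)|)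
  · simp only [abs_zero]
    positivity

theorem gevrey_add {f g : ℝ → ℝ} (hf : ContDiff ℝ ∞ f) (hg : ContDiff ℝ ∞ g)
    (hfb : ∃ a c : ℕ, GevreyBound f a c) (hgb : ∃ a c : ℕ, GevreyBound g a c) :
    ∃ a c : ℕ, GevreyBound (fun x => f x + g x) a c := by
  obtain ⟨a, c, h1⟩ := hfb
  obtain ⟨b, c', h2⟩ := hgb
  obtain ⟨h1, h2⟩ := gevreyBound_common h1 h2
  refine ⟨a + b, max (max c c') 1, fun k x => ?_⟩
  rw [iteratedDeriv_fun_add (contDiffAt_nat hf k x) (contDiffAt_nat hg k x)]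
  calc |iteratedDeriv k f x + iteratedDeriv k g x|
      ≤ |iteratedDeriv k f x| + |iteratedDeriv k g x| := abs_add_le _ _
    _ ≤ _ := add_le_add (h1 k x) (h2 k x)
    _ = _ := by push_cast; ring

theorem gevrey_neg {f : ℝ → ℝ} (_hf : ContDiff ℝ ∞ f) (hfb : ∃ a c : ℕ, GevreyBound f a c) :
    ∃ a c : ℕ, GevreyBound (fun x => -f x) a c := by
  obtain ⟨a, c, h1⟩ := hfb
  refine ⟨a, c, fun k x => ?_⟩
  rw [iteratedDeriv_fun_neg, abs_neg]
  exact h1 k x

theorem gevrey_const_mul (q : ℚ) {f : ℝ → ℝ} (_hf : ContDiff ℝ ∞ f)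
    (hfb : ∃ a c : ℕ, GevreyBound f a c) :
    ∃ a c : ℕ, GevreyBound (fun x => (q : ℝ) * f x) a c := by
  obtain ⟨a, c, h1⟩ := hfb
  refine ⟨⌈|(q : ℝ)|⌉₊ * a, c, fun k x => ?_⟩
  rw [iteratedDeriv_const_mul_field, abs_mul]
  have hq : |(q : ℝ)| ≤ (⌈|(q : ℝ)|⌉₊ : ℝ) := Nat.le_ceil _
  calc |(q : ℝ)| * |iteratedDeriv k f x|
      ≤ (⌈|(q : ℝ)|⌉₊ : ℝ) * ((a : ℝ) * (c : ℝ) ^ k * ((k.factorial : ℝ)) ^ 3) :=
        mul_le_mul hq (h1 k x) (abs_nonneg _) (by positivity)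
    _ = _ := by push_cast; ring

lemma choose_mul_fact_cube_le (k i : ℕ) (hi : i ≤ k) :
    k.choose i * (i.factorial) ^ 3 * ((k - i).factorial) ^ 3 ≤ (k.factorial) ^ 3 := by
  have h1 : k.choose i * i.factorial * (k - i).factorial = k.factorial :=
    Nat.choose_mul_factorial_mul_factorial hi
  have h2 : i.factorial * (k - i).factorial ≤ k.factorial := by
    have hpos : 0 < k.choose i := Nat.choose_pos hi
    calc i.factorial * (k - i).factorial = 1 * (i.factorial * (k - i).factorial) := by ring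
      _ ≤ k.choose i * (i.factorial * (k - i).factorial) := Nat.mul_le_mul_right _ hpos
      _ = k.factorial := by rw [← h1]; ring
  calc k.choose i * (i.factorial) ^ 3 * ((k - i).factorial) ^ 3
      = (k.choose i * i.factorial * (k - i).factorial) * (i.factorial * (k - i).factorial) ^ 2 := by
        ring
    _ = k.factorial * (i.factorial * (k - i).factorial) ^ 2 := by rw [h1]
    _ ≤ k.factorial * (k.factorial) ^ 2 := by gcongr
    _ = (k.factorial) ^ 3 := by ring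

/-- Pointwise Leibniz estimate: Gevrey-type bounds at the point `x` multiply. -/
lemma abs_iteratedDeriv_mul_le {u v : ℝ → ℝ} (hu : ContDiff ℝ ∞ u) (hv : ContDiff ℝ ∞ v) (x : ℝ)
    (a b c : ℕ)
    (hux : ∀ i, |iteratedDeriv i u x| ≤ (a : ℝ) * (c : ℝ) ^ i * ((i.factorial : ℝ)) ^ 3)
    (hvx : ∀ i, |iteratedDeriv i v x| ≤ (b : ℝ) * (c : ℝ) ^ i * ((i.factorial : ℝ)) ^ 3) (k : ℕ) :
    |iteratedDeriv k (fun y => u y * v y) x|
      ≤ ((a * b : ℕ) : ℝ) * ((2 * c : ℕ) : ℝ) ^ k * ((k.factorial : ℝ)) ^ 3 := by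
  rw [iteratedDeriv_fun_mul (contDiffAt_nat hu k x) (contDiffAt_nat hv k x)]
  calc |∑ i ∈ Finset.range (k + 1),
          (k.choose i : ℝ) * iteratedDeriv i u x * iteratedDeriv (k - i) v x|
      ≤ ∑ i ∈ Finset.range (k + 1),
          |(k.choose i : ℝ) * iteratedDeriv i u x * iteratedDeriv (k - i) v x| :=
        Finset.abs_sum_le_sum_abs _ _
    _ ≤ ∑ i ∈ Finset.range (k + 1), (a : ℝ) * b * (c : ℝ) ^ k * ((k.factorial : ℝ)) ^ 3 := by
        apply Finset.sum_le_sum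
        intro i hi
        have hik : i ≤ k := by
          simp only [Finset.mem_range] at hi
          omega
        rw [abs_mul, abs_mul, abs_of_nonneg (Nat.cast_nonneg _)]
        have h1 := hux i
        have h2 := hvx (k - i)
        have h3 : ((k.choose i : ℕ) : ℝ) * ((i.factorial : ℝ)) ^ 3 * (((k - i).factorial : ℝ)) ^ 3
            ≤ ((k.factorial : ℝ)) ^ 3 := by
          exact_mod_cast choose_mul_fact_cube_le k i hik
        have hc : (c : ℝ) ^ i * (c : ℝ) ^ (k - i) = (c : ℝ) ^ k := by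
          rw [← pow_add, Nat.add_sub_cancel' hik]
        calc (k.choose i : ℝ) * |iteratedDeriv i u x| * |iteratedDeriv (k - i) v x|
            ≤ (k.choose i : ℝ) * ((a : ℝ) * (c : ℝ) ^ i * ((i.factorial : ℝ)) ^ 3)
                * ((b : ℝ) * (c : ℝ) ^ (k - i) * (((k - i).factorial : ℝ)) ^ 3) := by gcongr
          _ = (a : ℝ) * b * ((c : ℝ) ^ i * (c : ℝ) ^ (k - i))
                * ((k.choose i : ℝ) * ((i.factorial : ℝ)) ^ 3 * (((k - i).factorial : ℝ)) ^ 3) := by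
              ring
          _ = (a : ℝ) * b * (c : ℝ) ^ k
                * ((k.choose i : ℝ) * ((i.factorial : ℝ)) ^ 3 * (((k - i).factorial : ℝ)) ^ 3) := by
              rw [hc]
          _ ≤ (a : ℝ) * b * (c : ℝ) ^ k * ((k.factorial : ℝ)) ^ 3 := by gcongr
    _ = ((k : ℝ) + 1) * ((a : ℝ) * b * (c : ℝ) ^ k * ((k.factorial : ℝ)) ^ 3) := by
        simp [Finset.sum_const, Finset.card_range]
    _ ≤ (2 : ℝ) ^ k * ((a : ℝ) * b * (c : ℝ) ^ k * ((k.factorial : ℝ)) ^ 3) := by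
        have h : ((k : ℝ) + 1) ≤ 2 ^ k := by
          have h2 : k + 1 ≤ 2 ^ k := Nat.lt_two_pow_self
          exact_mod_cast h2
        gcongr
    _ = ((a * b : ℕ) : ℝ) * ((2 * c : ℕ) : ℝ) ^ k * ((k.factorial : ℝ)) ^ 3 := by
        push_cast
        rw [mul_pow]
        ring

theorem gevrey_mul {f g : ℝ → ℝ} (hf : ContDiff ℝ ∞ f) (hg : ContDiff ℝ ∞ g)
    (hfb : ∃ a c : ℕ, GevreyBound f a c) (hgb : ∃ a c : ℕ, GevreyBound g a c) :
    ∃ a c : ℕ, GevreyBound (fun x => f x * g x) a c := by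
  obtain ⟨a, c, h1⟩ := hfb
  obtain ⟨b, c', h2⟩ := hgb
  obtain ⟨h1, h2⟩ := gevreyBound_common h1 h2
  exact ⟨a * b, 2 * max (max c c') 1, fun k x =>
    abs_iteratedDeriv_mul_le hf hg x a b _ (fun i => h1 i x) (fun i => h2 i x) k⟩

theorem gevrey_comp_affine (p q : ℚ) {f : ℝ → ℝ} (hf : ContDiff ℝ ∞ f)
    (hfb : ∃ a c : ℕ, GevreyBound f a c) :
    ∃ a c : ℕ, GevreyBound (fun x => f ((p : ℝ) * x + (q : ℝ))) a c := by
  obtain ⟨a, c, h1⟩ := hfb
  refine ⟨a, ⌈|(p : ℝ)|⌉₊ * c, fun k x => ?_⟩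
  have hsh : ContDiff ℝ ∞ (fun y => f (y + (q : ℝ))) := hf.comp (contDiff_id.add contDiff_const)
  have e1 : iteratedDeriv k (fun x => f ((p : ℝ) * x + (q : ℝ)))
      = fun x => (p : ℝ) ^ k * iteratedDeriv k (fun y => f (y + (q : ℝ))) ((p : ℝ) * x) :=
    iteratedDeriv_comp_const_mul (f := fun y => f (y + (q : ℝ)))
      (hsh.of_le (by exact_mod_cast le_top)) (p : ℝ)
  have e2 : iteratedDeriv k (fun y => f (y + (q : ℝ)))
      = fun t => iteratedDeriv k f (t + (q : ℝ)) := iteratedDeriv_comp_add_const k f (q : ℝ)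
  rw [e1, e2]
  simp only
  rw [abs_mul, abs_pow]
  have hp : |(p : ℝ)| ≤ (⌈|(p : ℝ)|⌉₊ : ℝ) := Nat.le_ceil _
  calc |(p : ℝ)| ^ k * |iteratedDeriv k f ((p : ℝ) * x + (q : ℝ))|
      ≤ (⌈|(p : ℝ)|⌉₊ : ℝ) ^ k * ((a : ℝ) * (c : ℝ) ^ k * ((k.factorial : ℝ)) ^ 3) :=
        mul_le_mul (pow_le_pow_left₀ (abs_nonneg _) hp k) (h1 k _) (abs_nonneg _) (by positivity)
    _ = _ := by push_cast; rw [mul_pow]; ring

theorem gevrey_deriv {f : ℝ → ℝ} (_hf : ContDiff ℝ ∞ f) (hfb : ∃ a c : ℕ, GevreyBound f a c) :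
    ∃ a c : ℕ, GevreyBound (deriv f) a c := by
  obtain ⟨a, c, h1⟩ := hfb
  refine ⟨a * c, 8 * c, fun k x => ?_⟩
  rw [← iteratedDeriv_succ']
  have hk : ((k : ℝ) + 1) ^ 3 ≤ (8 : ℝ) ^ k := by
    have h2 : k + 1 ≤ 2 ^ k := Nat.lt_two_pow_self
    have h3 : ((k : ℝ) + 1) ≤ 2 ^ k := by exact_mod_cast h2
    calc ((k : ℝ) + 1) ^ 3 ≤ ((2 : ℝ) ^ k) ^ 3 := pow_le_pow_left₀ (by positivity) h3 3
      _ = (8 : ℝ) ^ k := by rw [← pow_mul, mul_comm, pow_mul]; norm_num
  calc |iteratedDeriv (k + 1) f x|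
      ≤ (a : ℝ) * (c : ℝ) ^ (k + 1) * (((k + 1).factorial : ℝ)) ^ 3 := h1 (k + 1) x
    _ = (a : ℝ) * (c : ℝ) * (c : ℝ) ^ k * (((k : ℝ) + 1) ^ 3 * ((k.factorial : ℝ)) ^ 3) := by
        rw [Nat.factorial_succ]; push_cast; ring
    _ ≤ (a : ℝ) * (c : ℝ) * (c : ℝ) ^ k * ((8 : ℝ) ^ k * ((k.factorial : ℝ)) ^ 3) := by gcongr
    _ = _ := by push_cast; rw [mul_pow]; ring

theorem gevrey_sub_mul (q : ℚ) (R : ℕ) {f : ℝ → ℝ} (hf : ContDiff ℝ ∞ f)
    (hsupp : ∀ x, (R : ℝ) < |x| → f x = 0) (hfb : ∃ a c : ℕ, GevreyBound f a c) :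
    ∃ a c : ℕ, GevreyBound (fun x => (x - (q : ℝ)) * f x) a c := by
  obtain ⟨a, c, h1⟩ := hfb
  have h1' := gevreyBound_mono h1 le_rfl (le_max_left c 1)
  refine ⟨(R + ⌈|(q : ℝ)|⌉₊ + 1) * a, 2 * max c 1, fun k x => ?_⟩
  by_cases hx : (R : ℝ) < |x|
  · have hev : (fun y => (y - (q : ℝ)) * f y) =ᶠ[nhds x] (fun _ => (0 : ℝ)) := by
      have hopen : IsOpen {y : ℝ | (R : ℝ) < |y|} := isOpen_lt continuous_const continuous_abs
      filter_upwards [hopen.mem_nhds hx] with y hy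
      rw [hsupp y hy, mul_zero]
    rw [hev.iteratedDeriv_eq k, iteratedDeriv_fun_const_zero, abs_zero]
    positivity
  · push Not at hx
    have hu : ContDiff ℝ ∞ (fun y : ℝ => y - (q : ℝ)) := contDiff_id.sub contDiff_const
    refine abs_iteratedDeriv_mul_le hu hf x (R + ⌈|(q : ℝ)|⌉₊ + 1) a (max c 1) ?_
      (fun i => h1' i x) k
    intro i
    have hq : |(q : ℝ)| ≤ (⌈|(q : ℝ)|⌉₊ : ℝ) := Nat.le_ceil _
    have hc1 : (1 : ℝ) ≤ ((max c 1 : ℕ) : ℝ) := by exact_mod_cast le_max_right c 1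
    have hd : deriv (fun y : ℝ => y - (q : ℝ)) = fun _ => (1 : ℝ) := by
      funext y
      simp
    rcases i with _ | _ | i
    · simp only [iteratedDeriv_zero, pow_zero, Nat.factorial_zero, Nat.cast_one, one_pow, mul_one]
      push_cast
      have := abs_sub x (q : ℝ)
      linarith [abs_nonneg x, abs_nonneg (q : ℝ)]
    · rw [iteratedDeriv_succ', hd, iteratedDeriv_const]
      simp only [if_true, abs_one, zero_add, pow_one, Nat.factorial_one, Nat.cast_one, one_pow,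
        mul_one]
      have h1R : (1 : ℝ) ≤ ((R + ⌈|(q : ℝ)|⌉₊ + 1 : ℕ) : ℝ) := by
        exact_mod_cast Nat.le_add_left 1 _
      calc (1 : ℝ) = 1 * 1 := (mul_one _).symm
        _ ≤ ((R + ⌈|(q : ℝ)|⌉₊ + 1 : ℕ) : ℝ) * ((max c 1 : ℕ) : ℝ) :=
            mul_le_mul h1R hc1 zero_le_one (by positivity)
    · rw [iteratedDeriv_succ', hd, iteratedDeriv_const, if_neg (Nat.succ_ne_zero i), abs_zero]
      positivity

/-- Auxiliary geometric-sum estimate for the reciprocal. -/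
lemma geom_aux (E c : ℕ) (hE : 1 ≤ E) (k : ℕ) :
    E * ∑ i ∈ Finset.range k, (2 * E * c) ^ i * c ^ (k - i) ≤ (2 * E * c) ^ k := by
  induction k with
  | zero => simp
  | succ k ih =>
    rw [Finset.sum_range_succ]
    have h1 : ∑ i ∈ Finset.range k, (2 * E * c) ^ i * c ^ (k + 1 - i)
        = c * ∑ i ∈ Finset.range k, (2 * E * c) ^ i * c ^ (k - i) := by
      rw [Finset.mul_sum]
      apply Finset.sum_congr rfl
      intro i hi
      have : k + 1 - i = (k - i) + 1 := by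
        simp only [Finset.mem_range] at hi
        omega
      rw [this, pow_succ]
      ring
    rw [h1]
    have h2 : k + 1 - k = 1 := by omega
    rw [h2, pow_one]
    have hc : c ≤ E * c := Nat.le_mul_of_pos_left c hE
    calc E * (c * ∑ i ∈ Finset.range k, (2 * E * c) ^ i * c ^ (k - i) + (2 * E * c) ^ k * c)
        = c * (E * ∑ i ∈ Finset.range k, (2 * E * c) ^ i * c ^ (k - i))
            + E * c * (2 * E * c) ^ k := by ring
      _ ≤ c * (2 * E * c) ^ k + E * c * (2 * E * c) ^ k := by gcongr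
      _ ≤ E * c * (2 * E * c) ^ k + E * c * (2 * E * c) ^ k := by gcongr
      _ = (2 * E * c) ^ (k + 1) := by ring

/-- Gevrey bound for the reciprocal of a function bounded below by `1 / G`. -/
theorem gevreyBound_inv {g : ℝ → ℝ} (hg : ContDiff ℝ ∞ g) {G b c : ℕ} (hG : 0 < G) (hb : 1 ≤ b)
    (hlow : ∀ x, 1 / (G : ℝ) ≤ g x) (hgb : GevreyBound g b c) :
    GevreyBound (fun x => (g x)⁻¹) G (2 * (G * b) * c) := by
  have hGr : (0 : ℝ) < G := by exact_mod_cast hG
  have hgpos : ∀ x, 0 < g x := fun x => lt_of_lt_of_le (by positivity) (hlow x)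
  have hu : ContDiff ℝ ∞ (fun x => (g x)⁻¹) := hg.inv (fun x => (hgpos x).ne')
  intro k
  induction k using Nat.strong_induction_on with
  | _ k ih =>
    intro x
    rcases Nat.eq_zero_or_pos k with rfl | hk
    · simp only [iteratedDeriv_zero, pow_zero, Nat.factorial_zero, Nat.cast_one, one_pow, mul_one]
      rw [abs_of_pos (inv_pos.mpr (hgpos x))]
      have h := hlow x
      rw [one_div] at h
      exact inv_le_of_inv_le₀ hGr h
    · have hprod : (fun y => (g y)⁻¹ * g y) = fun _ => (1 : ℝ) := by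
        funext y
        exact inv_mul_cancel₀ (hgpos y).ne'
      have hL := iteratedDeriv_fun_mul (contDiffAt_nat hu k x) (contDiffAt_nat hg k x)
      rw [hprod, iteratedDeriv_const, if_neg hk.ne', Finset.sum_range_succ] at hL
      simp only [Nat.choose_self, Nat.cast_one, one_mul, Nat.sub_self, iteratedDeriv_zero] at hL
      set D : ℕ := 2 * (G * b) * c with hD
      set uk := iteratedDeriv k (fun x => (g x)⁻¹) x with huk
      -- bound on the lower-order part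
      have hsum : |∑ i ∈ Finset.range k, (k.choose i : ℝ) * iteratedDeriv i (fun x => (g x)⁻¹) x
            * iteratedDeriv (k - i) g x|
          ≤ ((k.factorial : ℝ)) ^ 3 * ((G * b : ℕ) : ℝ)
              * ∑ i ∈ Finset.range k, (D : ℝ) ^ i * (c : ℝ) ^ (k - i) := by
        rw [Finset.mul_sum]
        refine (Finset.abs_sum_le_sum_abs _ _).trans (Finset.sum_le_sum fun i hi => ?_)
        have hik : i < k := Finset.mem_range.mp hi
        rw [abs_mul, abs_mul, abs_of_nonneg (Nat.cast_nonneg _)]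
        have h1 := ih i hik x
        have h2 := hgb (k - i) x
        have h3 : ((k.choose i : ℕ) : ℝ) * ((i.factorial : ℝ)) ^ 3 * (((k - i).factorial : ℝ)) ^ 3
            ≤ ((k.factorial : ℝ)) ^ 3 := by
          exact_mod_cast choose_mul_fact_cube_le k i hik.le
        calc (k.choose i : ℝ) * |iteratedDeriv i (fun x => (g x)⁻¹) x| * |iteratedDeriv (k - i) g x|
            ≤ (k.choose i : ℝ) * ((G : ℝ) * (D : ℝ) ^ i * ((i.factorial : ℝ)) ^ 3)
                * ((b : ℝ) * (c : ℝ) ^ (k - i) * (((k - i).factorial : ℝ)) ^ 3) := by gcongr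
          _ = ((k.choose i : ℝ) * ((i.factorial : ℝ)) ^ 3 * (((k - i).factorial : ℝ)) ^ 3)
                * ((G : ℝ) * b) * ((D : ℝ) ^ i * (c : ℝ) ^ (k - i)) := by ring
          _ ≤ ((k.factorial : ℝ)) ^ 3 * ((G : ℝ) * b) * ((D : ℝ) ^ i * (c : ℝ) ^ (k - i)) := by
              gcongr
          _ = ((k.factorial : ℝ)) ^ 3 * ((G * b : ℕ) : ℝ) * ((D : ℝ) ^ i * (c : ℝ) ^ (k - i)) := by
              push_cast; ring
      have hgeo : ((G * b : ℕ) : ℝ) * ∑ i ∈ Finset.range k, (D : ℝ) ^ i * (c : ℝ) ^ (k - i)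
          ≤ (D : ℝ) ^ k := by
        have := geom_aux (G * b) c (Nat.mul_pos hG hb) k
        rw [← hD] at this
        exact_mod_cast this
      have hkey : |uk| * g x ≤ ((k.factorial : ℝ)) ^ 3 * (D : ℝ) ^ k := by
        have e : uk * g x = -∑ i ∈ Finset.range k, (k.choose i : ℝ)
            * iteratedDeriv i (fun x => (g x)⁻¹) x * iteratedDeriv (k - i) g x := by linarith
        have e2 : |uk| * g x = |uk * g x| := by rw [abs_mul, abs_of_pos (hgpos x)]
        rw [e2, e, abs_neg]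
        refine hsum.trans ?_
        rw [mul_assoc]
        exact mul_le_mul_of_nonneg_left hgeo (by positivity)
      have hGg : 1 ≤ (G : ℝ) * g x := by
        have h := hlow x
        rw [div_le_iff₀ hGr] at h
        linarith
      calc |uk| = |uk| * 1 := (mul_one _).symm
        _ ≤ |uk| * ((G : ℝ) * g x) := mul_le_mul_of_nonneg_left hGg (abs_nonneg _)
        _ = (G : ℝ) * (|uk| * g x) := by ring
        _ ≤ (G : ℝ) * (((k.factorial : ℝ)) ^ 3 * (D : ℝ) ^ k) :=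
            mul_le_mul_of_nonneg_left hkey hGr.le
        _ = (G : ℝ) * (D : ℝ) ^ k * ((k.factorial : ℝ)) ^ 3 := by ring

theorem gevrey_div (G : ℕ) (hG : 0 < G) {f g : ℝ → ℝ} (hf : ContDiff ℝ ∞ f)
    (hg : ContDiff ℝ ∞ g) (hlow : ∀ x, 1 / (G : ℝ) ≤ g x)
    (hfb : ∃ a c : ℕ, GevreyBound f a c) (hgb : ∃ a c : ℕ, GevreyBound g a c) :
    ∃ a c : ℕ, GevreyBound (fun x => f x / g x) a c := by
  obtain ⟨b, c, h2⟩ := hgb
  have hGr : (0 : ℝ) < G := by exact_mod_cast hG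
  have hgpos : ∀ x, 0 < g x := fun x => lt_of_lt_of_le (by positivity) (hlow x)
  have hu : ContDiff ℝ ∞ (fun x => (g x)⁻¹) := hg.inv (fun x => (hgpos x).ne')
  have h2' := gevreyBound_mono h2 (le_max_left b 1) le_rfl
  have hinv := gevreyBound_inv hg hG (le_max_right b 1) hlow h2'
  have := gevrey_mul hf hu hfb ⟨_, _, hinv⟩
  simpa only [div_eq_mul_inv] using this

end Crest.Agent.Helper4
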