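import Mathlib

/-!
# Computability of rational arithmetic through natural-number triples (helper4)

Mathlib's `Primcodable ℚ` comes from `Denumerable.ofEncodableOfInfinite`, an opaque rank encoding.
This file shows that the two interface maps
`ratToTriple : ℚ → ℕ × ℕ × ℕ` (`q ↦ (num⁺, num⁻, den)`) and
`tripleToRat : ℕ × ℕ × ℕ → ℚ` (`(p, m, d) ↦ (p - m) / d`)
are `Computable`, so any function on rationals defined through natural-number arithmetic on
triples is computable.
-/

set_option autoImplicit false

open Encodable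

namespace Crest.Agent.Helper4

/-! ### The integer code -/

lemma encode_int_ofNat (n : ℕ) : encode (Int.ofNat n) = 2 * n := by
  show Nat.bit false n = 2 * n
  simp [Nat.bit]

lemma encode_int_negSucc (n : ℕ) : encode (Int.negSucc n) = 2 * n + 1 := by
  show Nat.bit true n = 2 * n + 1
  simp [Nat.bit]

/-- positive part of an integer from its code -/
def codePos (c : ℕ) : ℕ := if c % 2 = 0 then c / 2 else 0

/-- negative part of an integer from its code -/
def codeNeg (c : ℕ) : ℕ := if c % 2 = 0 then 0 else c / 2 + 1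

lemma codePos_encode (z : ℤ) : codePos (encode z) = z.toNat := by
  cases z with
  | ofNat n => rw [encode_int_ofNat]; simp [codePos]
  | negSucc n => rw [encode_int_negSucc]; simp [codePos]

lemma codeNeg_encode (z : ℤ) : codeNeg (encode z) = (-z).toNat := by
  cases z with
  | ofNat n =>
    rw [encode_int_ofNat]
    simp [codeNeg]
  | negSucc n =>
    rw [encode_int_negSucc]
    simp only [codeNeg]
    rw [if_neg (by omega)]
    have : (-Int.negSucc n).toNat = n + 1 := by
      rw [Int.neg_negSucc]; rfl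
    rw [this]; omega

lemma primrec_codePos : Primrec codePos :=
  Primrec.ite (Primrec.eq.comp (Primrec.nat_mod.comp Primrec.id (Primrec.const 2)) (Primrec.const 0))
    (Primrec.nat_div.comp Primrec.id (Primrec.const 2)) (Primrec.const 0)

lemma primrec_codeNeg : Primrec codeNeg :=
  Primrec.ite (Primrec.eq.comp (Primrec.nat_mod.comp Primrec.id (Primrec.const 2)) (Primrec.const 0))
    (Primrec.const 0) (Primrec.succ.comp (Primrec.nat_div.comp Primrec.id (Primrec.const 2)))

/-! ### The old codes of the rationals -/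

/-- Code of a rational for Mathlib's plain `Encodable ℚ` instance. -/
def oldCode (q : ℚ) : ℕ := @encode ℚ Rat.instEncodable q

lemma oldCode_eq (q : ℚ) : oldCode q = Nat.pair (encode q.num) q.den := rfl

lemma oldCode_injective : Function.Injective oldCode :=
  @encode_injective ℚ Rat.instEncodable

/-- Arithmetic description of the set of old codes. -/
def IsRatCode (m : ℕ) : Prop :=
  0 < m.unpair.2 ∧ ∀ g < m.unpair.2 + 1,
    (codePos m.unpair.1 + codeNeg m.unpair.1) % g = 0 → m.unpair.2 % g = 0 → g = 1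

lemma natAbs_eq_codes (z : ℤ) : z.natAbs = codePos (encode z) + codeNeg (encode z) := by
  rw [codePos_encode, codeNeg_encode]
  omega

lemma mem_range_oldCode_iff (m : ℕ) : m ∈ Set.range oldCode ↔ IsRatCode m := by
  constructor
  · rintro ⟨q, rfl⟩
    rw [oldCode_eq]
    unfold IsRatCode
    rw [Nat.unpair_pair]
    refine ⟨q.den_pos, fun g _ h1 h2 => ?_⟩
    rw [← natAbs_eq_codes] at h1
    have hg1 : g ∣ q.num.natAbs := Nat.dvd_of_mod_eq_zero h1
    have hg2 : g ∣ q.den := Nat.dvd_of_mod_eq_zero h2
    exact Nat.eq_one_of_dvd_coprimes q.reduced hg1 hg2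
  · rintro ⟨hd, hco⟩
    set z : ℤ := Denumerable.ofNat ℤ m.unpair.1 with hz
    have hzc : encode z = m.unpair.1 := Denumerable.encode_ofNat _
    have hcop : Nat.Coprime z.natAbs m.unpair.2 := by
      rw [natAbs_eq_codes, hzc]
      have hgd : Nat.gcd (codePos m.unpair.1 + codeNeg m.unpair.1) m.unpair.2 ≤ m.unpair.2 :=
        Nat.gcd_le_right _ hd
      exact hco _ (Nat.lt_succ_of_le hgd) (Nat.mod_eq_zero_of_dvd (Nat.gcd_dvd_left _ _))
        (Nat.mod_eq_zero_of_dvd (Nat.gcd_dvd_right _ _))
    refine ⟨⟨z, m.unpair.2, hd.ne', hcop⟩, ?_⟩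
    rw [oldCode_eq]
    show Nat.pair (encode z) m.unpair.2 = m
    rw [hzc, Nat.pair_unpair]

instance : DecidablePred IsRatCode := fun m => by unfold IsRatCode; infer_instance

lemma primrecPred_isRatCode : PrimrecPred IsRatCode := by
  have hu1 : Primrec (fun m : ℕ => m.unpair.1) := Primrec.fst.comp Primrec.unpair
  have hu2 : Primrec (fun m : ℕ => m.unpair.2) := Primrec.snd.comp Primrec.unpair
  have habs : Primrec (fun m : ℕ => codePos m.unpair.1 + codeNeg m.unpair.1) :=
    Primrec.nat_add.comp (primrec_codePos.comp hu1) (primrec_codeNeg.comp hu1)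
  -- the relation R g m
  have hR : PrimrecRel (fun (g m : ℕ) =>
      (codePos m.unpair.1 + codeNeg m.unpair.1) % g = 0 → m.unpair.2 % g = 0 → g = 1) := by
    have h1 : PrimrecRel (fun (g m : ℕ) => (codePos m.unpair.1 + codeNeg m.unpair.1) % g = 0) :=
      Primrec.eq.comp (Primrec.nat_mod.comp (habs.comp Primrec.snd) Primrec.fst) (Primrec.const 0)
    have h2 : PrimrecRel (fun (g m : ℕ) => m.unpair.2 % g = 0) :=
      Primrec.eq.comp (Primrec.nat_mod.comp (hu2.comp Primrec.snd) Primrec.fst) (Primrec.const 0)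
    have h3 : PrimrecRel (fun (g _m : ℕ) => g = 1) :=
      Primrec.eq.comp Primrec.fst (Primrec.const 1)
    have := (h1.not.or (h2.not.or h3))
    refine this.of_eq fun p => ?_
    by_cases a : (codePos p.2.unpair.1 + codeNeg p.2.unpair.1) % p.1 = 0 <;>
      by_cases b : p.2.unpair.2 % p.1 = 0 <;> simp [a, b]
  have hall : PrimrecRel (fun (n m : ℕ) => ∀ g < n,
      (codePos m.unpair.1 + codeNeg m.unpair.1) % g = 0 → m.unpair.2 % g = 0 → g = 1) :=
    hR.forall_lt
  have hall' : PrimrecPred (fun m : ℕ => ∀ g < m.unpair.2 + 1,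
      (codePos m.unpair.1 + codeNeg m.unpair.1) % g = 0 → m.unpair.2 % g = 0 → g = 1) :=
    hall.comp (Primrec.succ.comp hu2) Primrec.id
  have hpos : PrimrecPred (fun m : ℕ => 0 < m.unpair.2) :=
    Primrec.nat_lt.comp (Primrec.const 0) hu2
  exact hpos.and hall'

/-! ### The rank encoding -/

/-- Number of old codes below `m`. -/
def countCodes (m : ℕ) : ℕ := ((List.range m).filter (fun x => decide (IsRatCode x))).length

lemma primrec_countCodes : Primrec countCodes :=
  Primrec.list_length.comp ((Primrec.listFilter primrecPred_isRatCode).comp Primrec.list_range)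

/-- Code of a rational for the `Primcodable ℚ` instance used by `Computable`. -/
def newCode (q : ℚ) : ℕ := @encode ℚ Primcodable.toEncodable q

lemma newCode_eq (q : ℚ) : newCode q = countCodes (oldCode q) := by
  have h : newCode q = (List.range (oldCode q)).countP
      (fun x => @decide (x ∈ Set.range (@encode ℚ Rat.instEncodable))
        (Encodable.decidableRangeEncode ℚ x)) := rfl
  rw [h, countCodes, List.countP_eq_length_filter]
  congr 1
  refine List.filter_congr (fun x _ => ?_)
  have := mem_range_oldCode_iff x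
  simp only [decide_eq_decide]
  exact this

lemma newCode_ofNat (n : ℕ) : newCode (Denumerable.ofNat ℚ n) = n :=
  Denumerable.encode_ofNat n

lemma ofNat_newCode (q : ℚ) : Denumerable.ofNat ℚ (newCode q) = q :=
  Denumerable.ofNat_encode q

/-- Old code of the `n`-th rational. -/
def rankCode (n : ℕ) : ℕ := oldCode (Denumerable.ofNat ℚ n)

lemma rankCode_spec (n : ℕ) : IsRatCode (rankCode n) ∧ countCodes (rankCode n) = n := by
  refine ⟨(mem_range_oldCode_iff _).mp ⟨_, rfl⟩, ?_⟩
  rw [rankCode, ← newCode_eq, newCode_ofNat]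

lemma rankCode_unique {n m : ℕ} (h1 : IsRatCode m) (h2 : countCodes m = n) : m = rankCode n := by
  obtain ⟨q, rfl⟩ := (mem_range_oldCode_iff m).mpr h1
  rw [← newCode_eq] at h2
  rw [rankCode, ← h2, ofNat_newCode]

lemma computable_rankCode : Computable rankCode := by
  have htest : Computable₂ (fun (n m : ℕ) => decide (IsRatCode m ∧ countCodes m = n)) := by
    have h1 : PrimrecRel (fun (n m : ℕ) => IsRatCode m) := primrecPred_isRatCode.comp Primrec.snd
    have h2 : PrimrecRel (fun (n m : ℕ) => countCodes m = n) :=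
      Primrec.eq.comp (primrec_countCodes.comp Primrec.snd) Primrec.fst
    exact (h1.and h2).decide.to_comp
  have hpart : Partrec (fun n : ℕ => Nat.rfind (fun m =>
      Part.some (decide (IsRatCode m ∧ countCodes m = n)))) :=
    Partrec.rfind htest.partrec₂
  refine hpart.of_eq_tot (fun n => ?_)
  rw [Nat.mem_rfind]
  refine ⟨?_, fun {m} hm => ?_⟩
  · simp only [Part.mem_some_iff]
    exact (decide_eq_true (rankCode_spec n)).symm
  · simp only [Part.mem_some_iff]
    symm
    apply decide_eq_false
    rintro ⟨h1, h2⟩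
    exact absurd (rankCode_unique h1 h2) (Nat.ne_of_lt hm)

/-! ### The two interface maps -/

/-- `q ↦ (num⁺, num⁻, den)`. -/
def ratToTriple (q : ℚ) : ℕ × ℕ × ℕ := (q.num.toNat, (-q.num).toNat, q.den)

/-- `(p, m, d) ↦ (p - m) / d`. -/
def tripleToRat (x : ℕ × ℕ × ℕ) : ℚ := ((x.1 : ℚ) - (x.2.1 : ℚ)) / (x.2.2 : ℚ)

lemma tripleToRat_ratToTriple (q : ℚ) : tripleToRat (ratToTriple q) = q := by
  unfold tripleToRat ratToTriple
  simp only
  have h : ((q.num.toNat : ℤ) - ((-q.num).toNat : ℤ)) = q.num := by omega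
  have h2 : ((q.num.toNat : ℚ) - ((-q.num).toNat : ℚ)) = (q.num : ℚ) := by
    exact_mod_cast h
  rw [h2]
  exact Rat.num_div_den q

lemma ratToTriple_ofNat (n : ℕ) : ratToTriple (Denumerable.ofNat ℚ n)
    = (codePos (rankCode n).unpair.1, codeNeg (rankCode n).unpair.1, (rankCode n).unpair.2) := by
  unfold ratToTriple
  rw [rankCode, oldCode_eq, Nat.unpair_pair, codePos_encode, codeNeg_encode]

theorem computable_ratToTriple : Computable ratToTriple := by
  have hu1 : Computable (fun n : ℕ => (rankCode n).unpair.1) :=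
    Computable.fst.comp (Computable.unpair.comp computable_rankCode)
  have hu2 : Computable (fun n : ℕ => (rankCode n).unpair.2) :=
    Computable.snd.comp (Computable.unpair.comp computable_rankCode)
  have h : Computable (fun n : ℕ =>
      (codePos (rankCode n).unpair.1, codeNeg (rankCode n).unpair.1, (rankCode n).unpair.2)) :=
    (primrec_codePos.to_comp.comp hu1).pair ((primrec_codeNeg.to_comp.comp hu1).pair hu2)
  have hnew : Computable newCode := Computable.encode
  have h' : Computable (fun q : ℚ => (fun n : ℕ =>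
      (codePos (rankCode n).unpair.1, codeNeg (rankCode n).unpair.1, (rankCode n).unpair.2))
        (newCode q)) := h.comp hnew
  refine h'.of_eq (fun q => ?_)
  have := ratToTriple_ofNat (newCode q)
  rw [ofNat_newCode] at this
  exact this.symm

/-- Boolean test: the triple `y = ratToTriple q` represents the same rational as the (arbitrary)
triple `x`. -/
def tripleEq (x y : ℕ × ℕ × ℕ) : Bool :=
  if x.2.2 = 0 then decide (y.1 = y.2.1)
  else decide (y.1 * x.2.2 + x.2.1 * y.2.2 = x.1 * y.2.2 + y.2.1 * x.2.2)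

lemma primrec₂_tripleEq : Primrec₂ tripleEq := by
  have x1 : Primrec (fun p : (ℕ × ℕ × ℕ) × (ℕ × ℕ × ℕ) => p.1.1) := Primrec.fst.comp Primrec.fst
  have x2 : Primrec (fun p : (ℕ × ℕ × ℕ) × (ℕ × ℕ × ℕ) => p.1.2.1) :=
    Primrec.fst.comp (Primrec.snd.comp Primrec.fst)
  have x3 : Primrec (fun p : (ℕ × ℕ × ℕ) × (ℕ × ℕ × ℕ) => p.1.2.2) :=
    Primrec.snd.comp (Primrec.snd.comp Primrec.fst)
  have y1 : Primrec (fun p : (ℕ × ℕ × ℕ) × (ℕ × ℕ × ℕ) => p.2.1) := Primrec.fst.comp Primrec.snd
  have y2 : Primrec (fun p : (ℕ × ℕ × ℕ) × (ℕ × ℕ × ℕ) => p.2.2.1) :=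
    Primrec.fst.comp (Primrec.snd.comp Primrec.snd)
  have y3 : Primrec (fun p : (ℕ × ℕ × ℕ) × (ℕ × ℕ × ℕ) => p.2.2.2) :=
    Primrec.snd.comp (Primrec.snd.comp Primrec.snd)
  have hc : PrimrecPred (fun p : (ℕ × ℕ × ℕ) × (ℕ × ℕ × ℕ) => p.1.2.2 = 0) :=
    Primrec.eq.comp x3 (Primrec.const 0)
  have h1 : Primrec (fun p : (ℕ × ℕ × ℕ) × (ℕ × ℕ × ℕ) => decide (p.2.1 = p.2.2.1)) :=
    (Primrec.eq.comp y1 y2).decide
  have h2 : Primrec (fun p : (ℕ × ℕ × ℕ) × (ℕ × ℕ × ℕ) =>
      decide (p.2.1 * p.1.2.2 + p.1.2.1 * p.2.2.2 = p.1.1 * p.2.2.2 + p.2.2.1 * p.1.2.2)) :=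
    (Primrec.eq.comp
      (Primrec.nat_add.comp (Primrec.nat_mul.comp y1 x3) (Primrec.nat_mul.comp x2 y3))
      (Primrec.nat_add.comp (Primrec.nat_mul.comp x1 y3) (Primrec.nat_mul.comp y2 x3))).decide
  exact Primrec.ite hc h1 h2

lemma tripleEq_ratToTriple_iff (x : ℕ × ℕ × ℕ) (q : ℚ) :
    tripleEq x (ratToTriple q) = true ↔ q = tripleToRat x := by
  obtain ⟨p, m, d⟩ := x
  unfold tripleEq ratToTriple tripleToRat
  simp only
  by_cases hd : d = 0
  · subst hd
    simp only [if_true, decide_eq_true_eq, Nat.cast_zero, div_zero]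
    constructor
    · intro h
      have : q.num = 0 := by omega
      exact Rat.num_eq_zero.mp this
    · intro h
      subst h
      simp
  · rw [if_neg hd]
    simp only [decide_eq_true_eq]
    have hdq : (d : ℚ) ≠ 0 := Nat.cast_ne_zero.mpr hd
    have hDq : (q.den : ℚ) ≠ 0 := Nat.cast_ne_zero.mpr q.den_nz
    have hq : q = (q.num : ℚ) / (q.den : ℚ) := (Rat.num_div_den q).symm
    have hnum : (q.num : ℚ) = (q.num.toNat : ℚ) - ((-q.num).toNat : ℚ) := by
      have h : ((q.num.toNat : ℤ) - ((-q.num).toNat : ℤ)) = q.num := by omega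
      exact_mod_cast h.symm
    constructor
    · intro h
      have h' : ((q.num.toNat : ℚ) * d + m * q.den) = (p * q.den + ((-q.num).toNat : ℚ) * d) := by
        exact_mod_cast h
      rw [hq, hnum, div_eq_div_iff hDq hdq]
      linarith
    · intro h
      rw [hq, hnum, div_eq_div_iff hDq hdq] at h
      have h' : ((q.num.toNat : ℚ) * d + m * q.den) = (p * q.den + ((-q.num).toNat : ℚ) * d) := by
        linarith
      exact_mod_cast h'

theorem computable_tripleToRat : Computable tripleToRat := by
  -- the triple of the n-th rational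
  have htrip : Computable (fun n : ℕ => ratToTriple (Denumerable.ofNat ℚ n)) :=
    computable_ratToTriple.comp (Computable.ofNat ℚ)
  have htest : Computable₂ (fun (x : ℕ × ℕ × ℕ) (n : ℕ) =>
      tripleEq x (ratToTriple (Denumerable.ofNat ℚ n))) :=
    primrec₂_tripleEq.to_comp.comp Computable.fst (htrip.comp Computable.snd)
  have hpart : Partrec (fun x : ℕ × ℕ × ℕ => Nat.rfind (fun n =>
      Part.some (tripleEq x (ratToTriple (Denumerable.ofNat ℚ n))))) :=
    Partrec.rfind htest.partrec₂
  have hcode : Computable (fun x : ℕ × ℕ × ℕ => newCode (tripleToRat x)) := by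
    refine hpart.of_eq_tot (fun x => ?_)
    rw [Nat.mem_rfind]
    refine ⟨?_, fun {k} hk => ?_⟩
    · simp only [Part.mem_some_iff]
      symm
      rw [tripleEq_ratToTriple_iff, ofNat_newCode]
    · simp only [Part.mem_some_iff]
      symm
      by_contra hne
      have htrue : tripleEq x (ratToTriple (Denumerable.ofNat ℚ k)) = true := by
        cases h : tripleEq x (ratToTriple (Denumerable.ofNat ℚ k))
        · exact absurd h hne
        · rfl
      rw [tripleEq_ratToTriple_iff] at htrue
      have : newCode (tripleToRat x) = k := by rw [← htrue, newCode_ofNat]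
      omega
  have := (Computable.ofNat ℚ).comp hcode
  exact this.of_eq (fun x => ofNat_newCode _)

end Crest.Agent.Helper4
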