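import Mathlib
import Crest.Agent.Helper4.RatComp

/-!
# S0170, package W1a: core computability of `ℚ` in the lead's exact statement shapes

`toTriple` / `ofTriple` with `Computable toTriple`, `Computable ofTriple`, derived from
`Crest.Agent.Helper4.RatComp` (`computable_ratToTriple`, `computable_tripleToRat`).
-/

set_option autoImplicit false

namespace Crest.Agent.Helper4

/-- Sign / absolute value of numerator / denominator. -/
def toTriple (q : ℚ) : Bool × ℕ × ℕ := (decide (q < 0), q.num.natAbs, q.den)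

/-- The rational `± a / d`. -/
def ofTriple (p : Bool × ℕ × ℕ) : ℚ := (if p.1 then -1 else 1) * (p.2.1 : ℚ) / (p.2.2 : ℚ)

lemma toTriple_eq (q : ℚ) :
    toTriple q = (decide (0 < (ratToTriple q).2.1),
      (ratToTriple q).1 + (ratToTriple q).2.1, (ratToTriple q).2.2) := by
  unfold toTriple ratToTriple
  have h1 : (q < 0) ↔ 0 < (-q.num).toNat := by
    rw [← Rat.num_neg]
    omega
  have h2 : q.num.natAbs = q.num.toNat + (-q.num).toNat := by omega
  simp only [h2, decide_eq_decide.mpr h1]

theorem computable_toTriple : Computable toTriple := by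
  have hg : Primrec (fun x : ℕ × ℕ × ℕ => (decide (0 < x.2.1), x.1 + x.2.1, x.2.2)) := by
    refine Primrec.pair ?_ (Primrec.pair ?_ ?_)
    · exact (Primrec.nat_lt.comp (Primrec.const 0) (Primrec.fst.comp Primrec.snd)).decide
    · exact Primrec.nat_add.comp Primrec.fst (Primrec.fst.comp Primrec.snd)
    · exact Primrec.snd.comp Primrec.snd
  exact (hg.to_comp.comp computable_ratToTriple).of_eq fun q => (toTriple_eq q).symm

lemma ofTriple_eq (p : Bool × ℕ × ℕ) :
    ofTriple p = tripleToRat (if p.1 then (0, p.2.1, p.2.2) else (p.2.1, 0, p.2.2)) := by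
  unfold ofTriple tripleToRat
  rcases p with ⟨b, a, d⟩
  cases b <;> simp

theorem computable_ofTriple : Computable ofTriple := by
  have hg : Primrec (fun p : Bool × ℕ × ℕ =>
      (if p.1 then ((0 : ℕ), p.2.1, p.2.2) else (p.2.1, (0 : ℕ), p.2.2))) := by
    have h1 : Primrec (fun p : Bool × ℕ × ℕ => ((0 : ℕ), p.2.1, p.2.2)) :=
      Primrec.pair (Primrec.const 0) Primrec.snd
    have h2 : Primrec (fun p : Bool × ℕ × ℕ => (p.2.1, (0 : ℕ), p.2.2)) :=
      Primrec.pair (Primrec.fst.comp Primrec.snd)
        (Primrec.pair (Primrec.const 0) (Primrec.snd.comp Primrec.snd))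
    exact (Primrec.cond Primrec.fst h1 h2).of_eq fun p => by cases p.1 <;> rfl
  exact (computable_tripleToRat.comp hg.to_comp).of_eq fun p => (ofTriple_eq p).symm

/-- `ofTriple` inverts `toTriple`. -/
lemma ofTriple_toTriple (q : ℚ) : ofTriple (toTriple q) = q := by
  unfold ofTriple toTriple
  simp only
  by_cases hq : q < 0
  · have hn : q.num < 0 := Rat.num_neg.mpr hq
    have h2 : ((q.num.natAbs : ℕ) : ℚ) = -(q.num : ℚ) := by
      have h3 : ((q.num.natAbs : ℕ) : ℤ) = -q.num := by omega
      have h4 : (((q.num.natAbs : ℕ) : ℤ) : ℚ) = ((-q.num : ℤ) : ℚ) := by rw [h3]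
      simpa using h4
    simp only [hq, decide_true, if_true, h2]
    have := Rat.num_div_den q
    rw [neg_one_mul, neg_neg]
    exact this
  · have hn : 0 ≤ q.num := Rat.num_nonneg.mpr (not_lt.mp hq)
    have h2 : ((q.num.natAbs : ℕ) : ℚ) = (q.num : ℚ) := by
      have h3 : ((q.num.natAbs : ℕ) : ℤ) = q.num := by omega
      have h4 : (((q.num.natAbs : ℕ) : ℤ) : ℚ) = ((q.num : ℤ) : ℚ) := by rw [h3]
      simpa using h4
    simp only [hq, decide_false, h2]
    simpa using Rat.num_div_den q

end Crest.Agent.Helper4
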