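import Mathlib
import Crest.Agent.Helper4.RatComp
import Crest.Agent.Helper4.BoxFlowRatCore

/-!
# S0170, package W1b (safety-net copy): computable arithmetic on `ℚ`

Everything goes through the natural triples of `RatComp`:
`ratToTriple q = (q.num.toNat, (-q.num).toNat, q.den)` and
`tripleToRat (a, b, d) = (a - b) / d`.
-/

set_option autoImplicit false

namespace Crest.Agent.Helper4

/-! ### facts about triples -/

lemma ratToTriple_den_pos (q : ℚ) : 0 < (ratToTriple q).2.2 := q.den_pos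

lemma ratToTriple_den_ne (q : ℚ) : ((ratToTriple q).2.2 : ℚ) ≠ 0 := by
  have := q.den_pos
  have h : (ratToTriple q).2.2 = q.den := rfl
  rw [h]
  exact_mod_cast this.ne'

lemma ratToTriple_zero_or (q : ℚ) : (ratToTriple q).1 = 0 ∨ (ratToTriple q).2.1 = 0 := by
  unfold ratToTriple
  simp only
  omega

/-- Unary operations computed on triples. -/
lemma rat_unop {σ : Type*} [Primcodable σ] {g : (ℕ × ℕ × ℕ) → σ} (hg : Computable g) {op : ℚ → σ}
    (h : ∀ q, g (ratToTriple q) = op q) : Computable op :=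
  (hg.comp computable_ratToTriple).of_eq h

/-- Binary operations computed on triples. -/
lemma rat_binop {σ : Type*} [Primcodable σ] {g : (ℕ × ℕ × ℕ) → (ℕ × ℕ × ℕ) → σ}
    (hg : Computable₂ g) {op : ℚ → ℚ → σ}
    (h : ∀ q1 q2, g (ratToTriple q1) (ratToTriple q2) = op q1 q2) : Computable₂ op := by
  have : Computable (fun p : ℚ × ℚ => g (ratToTriple p.1) (ratToTriple p.2)) :=
    hg.comp (computable_ratToTriple.comp Computable.fst)
      (computable_ratToTriple.comp Computable.snd)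
  exact this.of_eq fun p => h p.1 p.2

/-! ### the triple-level operations -/

def tAdd (x y : ℕ × ℕ × ℕ) : ℕ × ℕ × ℕ :=
  (x.1 * y.2.2 + y.1 * x.2.2, x.2.1 * y.2.2 + y.2.1 * x.2.2, x.2.2 * y.2.2)

def tMul (x y : ℕ × ℕ × ℕ) : ℕ × ℕ × ℕ :=
  (x.1 * y.1 + x.2.1 * y.2.1, x.1 * y.2.1 + x.2.1 * y.1, x.2.2 * y.2.2)

def tNeg (x : ℕ × ℕ × ℕ) : ℕ × ℕ × ℕ := (x.2.1, x.1, x.2.2)

def tInv (x : ℕ × ℕ × ℕ) : ℕ × ℕ × ℕ :=
  (x.2.2 * x.1, x.2.2 * x.2.1, x.1 * x.1 + x.2.1 * x.2.1)

private lemma p1 : Primrec (fun p : (ℕ × ℕ × ℕ) × (ℕ × ℕ × ℕ) => p.1.1) :=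
  Primrec.fst.comp Primrec.fst
private lemma p2 : Primrec (fun p : (ℕ × ℕ × ℕ) × (ℕ × ℕ × ℕ) => p.1.2.1) :=
  Primrec.fst.comp (Primrec.snd.comp Primrec.fst)
private lemma p3 : Primrec (fun p : (ℕ × ℕ × ℕ) × (ℕ × ℕ × ℕ) => p.1.2.2) :=
  Primrec.snd.comp (Primrec.snd.comp Primrec.fst)
private lemma p4 : Primrec (fun p : (ℕ × ℕ × ℕ) × (ℕ × ℕ × ℕ) => p.2.1) :=
  Primrec.fst.comp Primrec.snd
private lemma p5 : Primrec (fun p : (ℕ × ℕ × ℕ) × (ℕ × ℕ × ℕ) => p.2.2.1) :=
  Primrec.fst.comp (Primrec.snd.comp Primrec.snd)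
private lemma p6 : Primrec (fun p : (ℕ × ℕ × ℕ) × (ℕ × ℕ × ℕ) => p.2.2.2) :=
  Primrec.snd.comp (Primrec.snd.comp Primrec.snd)

private lemma pmul {α : Type*} [Primcodable α] {f g : α → ℕ} (hf : Primrec f) (hg : Primrec g) :
    Primrec (fun a => f a * g a) := Primrec.nat_mul.comp hf hg
private lemma padd {α : Type*} [Primcodable α] {f g : α → ℕ} (hf : Primrec f) (hg : Primrec g) :
    Primrec (fun a => f a + g a) := Primrec.nat_add.comp hf hg

lemma primrec₂_tAdd : Primrec₂ tAdd :=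
  Primrec.pair (padd (pmul p1 p6) (pmul p4 p3))
    (Primrec.pair (padd (pmul p2 p6) (pmul p5 p3)) (pmul p3 p6))

lemma primrec₂_tMul : Primrec₂ tMul :=
  Primrec.pair (padd (pmul p1 p4) (pmul p2 p5))
    (Primrec.pair (padd (pmul p1 p5) (pmul p2 p4)) (pmul p3 p6))

private lemma q1 : Primrec (fun x : ℕ × ℕ × ℕ => x.1) := Primrec.fst
private lemma q2 : Primrec (fun x : ℕ × ℕ × ℕ => x.2.1) := Primrec.fst.comp Primrec.snd
private lemma q3 : Primrec (fun x : ℕ × ℕ × ℕ => x.2.2) := Primrec.snd.comp Primrec.snd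

lemma primrec_tNeg : Primrec tNeg := Primrec.pair q2 (Primrec.pair q1 q3)

lemma primrec_tInv : Primrec tInv :=
  Primrec.pair (pmul q3 q1) (Primrec.pair (pmul q3 q2) (padd (pmul q1 q1) (pmul q2 q2)))

lemma tripleToRat_tAdd (x y : ℕ × ℕ × ℕ) (hx : (x.2.2 : ℚ) ≠ 0) (hy : (y.2.2 : ℚ) ≠ 0) :
    tripleToRat (tAdd x y) = tripleToRat x + tripleToRat y := by
  unfold tripleToRat tAdd
  push_cast
  field_simp
  ring

lemma tripleToRat_tMul (x y : ℕ × ℕ × ℕ) (hx : (x.2.2 : ℚ) ≠ 0) (hy : (y.2.2 : ℚ) ≠ 0) :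
    tripleToRat (tMul x y) = tripleToRat x * tripleToRat y := by
  unfold tripleToRat tMul
  push_cast
  field_simp
  ring

lemma tripleToRat_tNeg (x : ℕ × ℕ × ℕ) : tripleToRat (tNeg x) = -tripleToRat x := by
  unfold tripleToRat tNeg
  simp only
  ring

lemma tripleToRat_tInv (x : ℕ × ℕ × ℕ) (hx : (x.2.2 : ℚ) ≠ 0) (h0 : x.1 = 0 ∨ x.2.1 = 0) :
    tripleToRat (tInv x) = (tripleToRat x)⁻¹ := by
  obtain ⟨a, b, d⟩ := x
  simp only at hx h0
  unfold tripleToRat tInv
  simp only
  rcases h0 with rfl | rfl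
  · by_cases hb : b = 0
    · subst hb; simp
    · have hb' : (b : ℚ) ≠ 0 := by exact_mod_cast hb
      push_cast
      field_simp
      ring
  · by_cases ha : a = 0
    · subst ha; simp
    · have ha' : (a : ℚ) ≠ 0 := by exact_mod_cast ha
      push_cast
      field_simp
      ring

/-! ### W1b exports -/

theorem rat_add : Computable₂ ((· + ·) : ℚ → ℚ → ℚ) :=
  rat_binop (g := fun x y => tripleToRat (tAdd x y))
    (computable_tripleToRat.comp primrec₂_tAdd.to_comp) fun q1 q2 => by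
    rw [tripleToRat_tAdd _ _ (ratToTriple_den_ne q1) (ratToTriple_den_ne q2),
      tripleToRat_ratToTriple, tripleToRat_ratToTriple]

theorem rat_mul : Computable₂ ((· * ·) : ℚ → ℚ → ℚ) :=
  rat_binop (g := fun x y => tripleToRat (tMul x y))
    (computable_tripleToRat.comp primrec₂_tMul.to_comp) fun q1 q2 => by
    rw [tripleToRat_tMul _ _ (ratToTriple_den_ne q1) (ratToTriple_den_ne q2),
      tripleToRat_ratToTriple, tripleToRat_ratToTriple]

theorem rat_neg : Computable (Neg.neg : ℚ → ℚ) :=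
  rat_unop (g := fun x => tripleToRat (tNeg x))
    (computable_tripleToRat.comp primrec_tNeg.to_comp) fun q => by
    rw [tripleToRat_tNeg, tripleToRat_ratToTriple]

theorem rat_inv : Computable (Inv.inv : ℚ → ℚ) :=
  rat_unop (g := fun x => tripleToRat (tInv x))
    (computable_tripleToRat.comp primrec_tInv.to_comp) fun q => by
    rw [tripleToRat_tInv _ (ratToTriple_den_ne q) (ratToTriple_zero_or q),
      tripleToRat_ratToTriple]

theorem rat_sub : Computable₂ ((· - ·) : ℚ → ℚ → ℚ) :=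
  (rat_add.comp Computable.fst (rat_neg.comp Computable.snd)).of_eq fun p => by
    simp [sub_eq_add_neg]

theorem rat_div : Computable₂ ((· / ·) : ℚ → ℚ → ℚ) :=
  (rat_mul.comp Computable.fst (rat_inv.comp Computable.snd)).of_eq fun p => by
    simp [div_eq_mul_inv]

theorem rat_natCast : Computable (Nat.cast : ℕ → ℚ) := by
  have h : Primrec (fun n : ℕ => ((n, 0, 1) : ℕ × ℕ × ℕ)) :=
    Primrec.pair Primrec.id (Primrec.const (0, 1))
  exact (computable_tripleToRat.comp h.to_comp).of_eq fun n => by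
    unfold tripleToRat
    simp

theorem rat_natAbs_num : Computable (fun q : ℚ => q.num.natAbs) :=
  rat_unop (g := fun x => x.1 + x.2.1) (padd q1 q2).to_comp fun q => by
    unfold ratToTriple
    simp only
    omega

theorem rat_den : Computable (fun q : ℚ => q.den) :=
  rat_unop (g := fun x => x.2.2) q3.to_comp fun _ => rfl

lemma tripleToRat_le_iff (x y : ℕ × ℕ × ℕ) (hx : 0 < x.2.2) (hy : 0 < y.2.2) :
    tripleToRat x ≤ tripleToRat y ↔
      x.1 * y.2.2 + y.2.1 * x.2.2 ≤ y.1 * x.2.2 + x.2.1 * y.2.2 := by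
  have d1 : (0 : ℚ) < (x.2.2 : ℚ) := by exact_mod_cast hx
  have d2 : (0 : ℚ) < (y.2.2 : ℚ) := by exact_mod_cast hy
  unfold tripleToRat
  rw [div_le_div_iff₀ d1 d2]
  constructor
  · intro h
    have h' : ((x.1 * y.2.2 + y.2.1 * x.2.2 : ℕ) : ℚ) ≤ ((y.1 * x.2.2 + x.2.1 * y.2.2 : ℕ) : ℚ) := by
      push_cast
      linarith
    exact_mod_cast h'
  · intro h
    have h' : ((x.1 * y.2.2 + y.2.1 * x.2.2 : ℕ) : ℚ) ≤ ((y.1 * x.2.2 + x.2.1 * y.2.2 : ℕ) : ℚ) := by
      exact_mod_cast h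
    push_cast at h'
    linarith

theorem rat_le : Computable₂ (fun a b : ℚ => decide (a ≤ b)) := by
  refine rat_binop
    (g := fun x y => decide (x.1 * y.2.2 + y.2.1 * x.2.2 ≤ y.1 * x.2.2 + x.2.1 * y.2.2))
    ?_ fun q1 q2 => ?_
  · exact (Primrec.nat_le.comp (padd (pmul p1 p6) (pmul p5 p3))
      (padd (pmul p4 p3) (pmul p2 p6))).decide.to_comp
  · apply decide_eq_decide.mpr
    have h := tripleToRat_le_iff (ratToTriple q1) (ratToTriple q2) (ratToTriple_den_pos q1)
      (ratToTriple_den_pos q2)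
    rw [tripleToRat_ratToTriple, tripleToRat_ratToTriple] at h
    exact h.symm

theorem rat_lt : Computable₂ (fun a b : ℚ => decide (a < b)) :=
  ((Primrec.not.to_comp).comp (rat_le.comp Computable.snd Computable.fst)).of_eq fun p => by
    simp [← not_le]

theorem rat_abs : Computable (fun q : ℚ => |q|) := by
  have hc : Computable (fun q : ℚ => decide ((0 : ℚ) ≤ q)) :=
    rat_le.comp (Computable.const 0) Computable.id
  exact (Computable.cond hc Computable.id rat_neg).of_eq fun q => by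
    by_cases h : (0 : ℚ) ≤ q
    · simp [h, abs_of_nonneg h]
    · simp [h, abs_of_neg (not_le.mp h)]

theorem rat_pow : Computable₂ (fun (q : ℚ) (k : ℕ) => q ^ k) := by
  have hh : Computable₂ (fun (a : ℚ × ℕ) (p : ℕ × ℚ) => p.2 * a.1) :=
    rat_mul.comp (Computable.snd.comp Computable.snd) (Computable.fst.comp Computable.fst)
  have := Computable.nat_rec (f := fun a : ℚ × ℕ => a.2) (g := fun _ : ℚ × ℕ => (1 : ℚ))
    (h := fun (a : ℚ × ℕ) (p : ℕ × ℚ) => p.2 * a.1) Computable.snd (Computable.const 1) hh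
  refine this.of_eq fun a => ?_
  obtain ⟨q, k⟩ := a
  simp only
  induction k with
  | zero => simp
  | succ k ih => simp only [pow_succ]; rw [← ih]

theorem rat_sum {α : Type*} [Primcodable α] {F : α → ℕ → ℚ} (hF : Computable₂ F) :
    Computable₂ (fun (x : α) (k : ℕ) => ∑ j ∈ Finset.range (k + 1), F x j) := by
  have hh : Computable₂ (fun (a : α × ℕ) (p : ℕ × ℚ) => p.2 + F a.1 (p.1 + 1)) :=
    rat_add.comp (Computable.snd.comp Computable.snd)
      (hF.comp (Computable.fst.comp Computable.fst)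
        (Computable.succ.comp (Computable.fst.comp Computable.snd)))
  have hg : Computable (fun a : α × ℕ => F a.1 0) :=
    hF.comp Computable.fst (Computable.const 0)
  have := Computable.nat_rec (f := fun a : α × ℕ => a.2) (g := fun a : α × ℕ => F a.1 0)
    (h := fun (a : α × ℕ) (p : ℕ × ℚ) => p.2 + F a.1 (p.1 + 1)) Computable.snd hg hh
  refine this.of_eq fun a => ?_
  obtain ⟨x, k⟩ := a
  simp only
  induction k with
  | zero => simp
  | succ k ih => rw [Finset.sum_range_succ, ← ih]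

theorem vec3 {α : Type*} [Primcodable α] {F : α → Fin 3 → ℚ}
    (h : ∀ j, Computable (fun x => F x j)) : Computable F :=
  (Primrec.vector_get'.to_comp.comp (Computable.vector_ofFn h)).of_eq fun a => by
    funext i
    simp

theorem vec3_app (j : Fin 3) : Computable (fun v : Fin 3 → ℚ => v j) :=
  Computable.fin_app.comp Computable.id (Computable.const j)

end Crest.Agent.Helper4
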