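import Mathlib
import Crest.Agent.BoxFlow.Defs
import Crest.Agent.Helper4.BoxFlowRatOps
import Crest.Agent.Helper4.BoxFlowExp

/-!
# S0170, package W2: computable rational approximations of `Real.smoothTransition`
-/

set_option autoImplicit false

open Crest.Agent.BoxFlow

namespace Crest.Agent.Helper4

/-- The factorial is primitive recursive. -/
theorem primrec_factorial : Primrec Nat.factorial := by
  have h : Primrec₂ (fun (k IH : ℕ) => (k + 1) * IH) :=
    Primrec.nat_mul.comp (Primrec.succ.comp Primrec.fst) Primrec.snd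
  refine (Primrec.nat_rec₁ 1 h).of_eq fun n => ?_
  induction n with
  | zero => rfl
  | succ n ih => simp only [Nat.factorial_succ]; rw [← ih]

/-- Terms of the exponential series. -/
def expTerm (y : ℚ) (j : ℕ) : ℚ := y ^ j / (j.factorial : ℚ)

theorem computable₂_expTerm : Computable₂ expTerm :=
  rat_div.comp rat_pow (rat_natCast.comp (primrec_factorial.to_comp.comp Computable.snd))

/-- Partial sums of the exponential series (`K + 1` terms). -/
def expSum (y : ℚ) (K : ℕ) : ℚ := ∑ j ∈ Finset.range (K + 1), expTerm y j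

theorem computable₂_expSum : Computable₂ expSum := rat_sum computable₂_expTerm

/-- The exponent `1/r - 1/(1-r)`. -/
def sigG (r : ℚ) : ℚ := 1 / r - 1 / (1 - r)

theorem computable_sigG : Computable sigG :=
  rat_sub.comp (rat_div.comp (Computable.const 1) Computable.id)
    (rat_div.comp (Computable.const 1) (rat_sub.comp (Computable.const 1) Computable.id))

/-- Rational approximation of `exp (-|g r|)`. -/
def sigW (p : ℚ × ℕ) : ℚ :=
  1 / expSum |sigG p.1| (6 * |sigG p.1|.num.natAbs + p.2 + 2)

theorem computable_sigW : Computable sigW := by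
  have hy : Computable (fun p : ℚ × ℕ => |sigG p.1|) :=
    rat_abs.comp (computable_sigG.comp Computable.fst)
  have hN : Computable (fun p : ℚ × ℕ => |sigG p.1|.num.natAbs) := rat_natAbs_num.comp hy
  have hK : Computable (fun p : ℚ × ℕ => 6 * |sigG p.1|.num.natAbs + p.2 + 2) := by
    have h1 : Computable (fun p : ℚ × ℕ => 6 * |sigG p.1|.num.natAbs) :=
      Primrec.nat_mul.to_comp.comp (Computable.const 6) hN
    have h2 : Computable (fun p : ℚ × ℕ => 6 * |sigG p.1|.num.natAbs + p.2) :=
      Primrec.nat_add.to_comp.comp h1 Computable.snd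
    exact Primrec.nat_add.to_comp.comp h2 (Computable.const 2)
  exact rat_div.comp (Computable.const 1) (computable₂_expSum.comp hy hK)

/-- The approximating function for `Real.smoothTransition`. -/
def sigA (p : ℚ × ℕ) : ℚ :=
  cond (decide (p.1 ≤ 0)) 0
    (cond (decide (1 ≤ p.1)) 1
      (cond (decide (0 ≤ sigG p.1)) (sigW p / (1 + sigW p)) (1 / (1 + sigW p))))

theorem computable_sigA : Computable sigA := by
  have h1 : Computable (fun p : ℚ × ℕ => decide (p.1 ≤ 0)) :=
    rat_le.comp Computable.fst (Computable.const 0)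
  have h2 : Computable (fun p : ℚ × ℕ => decide (1 ≤ p.1)) :=
    rat_le.comp (Computable.const 1) Computable.fst
  have h3 : Computable (fun p : ℚ × ℕ => decide (0 ≤ sigG p.1)) :=
    rat_le.comp (Computable.const 0) (computable_sigG.comp Computable.fst)
  have hden : Computable (fun p : ℚ × ℕ => 1 + sigW p) :=
    rat_add.comp (Computable.const 1) computable_sigW
  have ha : Computable (fun p : ℚ × ℕ => sigW p / (1 + sigW p)) :=
    rat_div.comp computable_sigW hden
  have hb : Computable (fun p : ℚ × ℕ => 1 / (1 + sigW p)) :=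
    rat_div.comp (Computable.const 1) hden
  exact Computable.cond h1 (Computable.const 0)
    (Computable.cond h2 (Computable.const 1) (Computable.cond h3 ha hb))

lemma sigW_nonneg (p : ℚ × ℕ) : 0 ≤ sigW p := by
  unfold sigW expSum expTerm
  apply div_nonneg zero_le_one
  apply Finset.sum_nonneg
  intro j _
  positivity

lemma sigW_approx (r : ℚ) (n : ℕ) :
    |Real.exp (-((|sigG r| : ℚ) : ℝ)) - ((sigW (r, n) : ℚ) : ℝ)| ≤ 1 / (4 * ((n : ℝ) + 1)) := by
  have h := exp_neg_approx |sigG r| (abs_nonneg _) n (6 * |sigG r|.num.natAbs + n + 2 + 1)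
    (by omega)
  exact h

/-- Elementary Lipschitz estimate used for both branches. -/
lemma lip_aux {w₀ w : ℝ} (h0 : 0 ≤ w₀) (h : 0 ≤ w) :
    |w₀ / (1 + w₀) - w / (1 + w)| ≤ |w₀ - w| ∧ |1 / (1 + w₀) - 1 / (1 + w)| ≤ |w₀ - w| := by
  have p0 : 0 < 1 + w₀ := by linarith
  have p1 : 0 < 1 + w := by linarith
  have e1 : w₀ / (1 + w₀) - w / (1 + w) = (w₀ - w) / ((1 + w₀) * (1 + w)) := by
    field_simp; ring
  have e2 : 1 / (1 + w₀) - 1 / (1 + w) = -(w₀ - w) / ((1 + w₀) * (1 + w)) := by
    field_simp; ring
  have hden : 1 ≤ (1 + w₀) * (1 + w) := by nlinarith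
  constructor
  · rw [e1, abs_div, abs_of_pos (by positivity : 0 < (1 + w₀) * (1 + w))]
    exact div_le_self (abs_nonneg _) hden
  · rw [e2, abs_div, abs_neg, abs_of_pos (by positivity : 0 < (1 + w₀) * (1 + w))]
    exact div_le_self (abs_nonneg _) hden

theorem sigA_approx (r : ℚ) (n : ℕ) :
    |Real.smoothTransition (r : ℝ) - (sigA (r, n) : ℝ)| ≤ 1 / ((n : ℝ) + 1) := by
  have hn : (0 : ℝ) < (n : ℝ) + 1 := by positivity
  have hq : 1 / (4 * ((n : ℝ) + 1)) ≤ 1 / ((n : ℝ) + 1) := by
    apply one_div_le_one_div_of_le hn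
    linarith
  unfold sigA
  by_cases h0 : r ≤ 0
  · have h0' : (r : ℝ) ≤ 0 := by exact_mod_cast h0
    simp only [h0, decide_true, cond_true]
    rw [Real.smoothTransition.zero_of_nonpos h0']
    simp only [Rat.cast_zero, sub_zero, abs_zero]
    positivity
  by_cases h1 : 1 ≤ r
  · have h1' : (1 : ℝ) ≤ (r : ℝ) := by exact_mod_cast h1
    simp only [h0, h1, decide_true, decide_false, cond_true, cond_false]
    rw [Real.smoothTransition.one_of_one_le h1']
    simp only [Rat.cast_one, sub_self, abs_zero]
    positivity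
  have hr0 : 0 < r := not_le.mp h0
  have hr1 : r < 1 := not_le.mp h1
  simp only [h0, h1, decide_false, cond_false]
  have hst := smoothTransition_rat r hr0 hr1
  have hgdef : (1 / r - 1 / (1 - r) : ℚ) = sigG r := rfl
  rw [hgdef] at hst
  have hw := sigW_approx r n
  have hwnn : (0 : ℝ) ≤ ((sigW (r, n) : ℚ) : ℝ) := by exact_mod_cast sigW_nonneg (r, n)
  set w : ℝ := ((sigW (r, n) : ℚ) : ℝ) with hwdef
  set w₀ : ℝ := Real.exp (-((|sigG r| : ℚ) : ℝ)) with hw0def
  have hw0pos : 0 < w₀ := Real.exp_pos _
  obtain ⟨hl1, hl2⟩ := lip_aux hw0pos.le hwnn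
  by_cases hg : 0 ≤ sigG r
  · simp only [hg, decide_true, cond_true]
    have habs : |sigG r| = sigG r := abs_of_nonneg hg
    have hexp : Real.exp ((sigG r : ℚ) : ℝ) = 1 / w₀ := by
      rw [hw0def, habs, Real.exp_neg]
      simp
    have hσ : Real.smoothTransition (r : ℝ) = w₀ / (1 + w₀) := by
      rw [hst, hexp]
      field_simp
      ring
    rw [hσ]
    have hcast : ((sigW (r, n) / (1 + sigW (r, n)) : ℚ) : ℝ) = w / (1 + w) := by
      push_cast
      rfl
    rw [hcast]
    exact hl1.trans (hw.trans hq)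
  · simp only [hg, decide_false, cond_false]
    have hneg : sigG r < 0 := not_le.mp hg
    have habs : |sigG r| = -sigG r := abs_of_neg hneg
    have hexp : Real.exp ((sigG r : ℚ) : ℝ) = w₀ := by
      rw [hw0def, habs]
      push_cast
      rw [neg_neg]
    have hσ : Real.smoothTransition (r : ℝ) = 1 / (1 + w₀) := by
      rw [hst, hexp]
    rw [hσ]
    have hcast : ((1 / (1 + sigW (r, n)) : ℚ) : ℝ) = 1 / (1 + w) := by
      push_cast
      rfl
    rw [hcast]
    exact hl2.trans (hw.trans hq)

/-- **W2**: `Real.smoothTransition` has computable rational approximations at rational points. -/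
theorem smoothTransition_valApprox : ValApprox Real.smoothTransition :=
  ⟨sigA, computable_sigA, sigA_approx⟩

end Crest.Agent.Helper4
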