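import Mathlib
import Crest.Agent.Helper4.ExpLaw

/-!
# Peeling one coordinate off the product exponential law (helper4)
-/

set_option autoImplicit false

open MeasureTheory Real Set
open scoped ENNReal

namespace Crest.Agent.Helper4

/-- Peeling coordinate `i` off the product exponential law (general integrable `F`). -/
theorem integral_piExp_succAbove (N : ℕ) (i : Fin (N + 1)) (F : (Fin (N + 1) → ℝ) → ℝ)
    (hF : Integrable F (Measure.pi fun _ : Fin (N + 1) => expLaw)) :
    ∫ x, F x ∂(Measure.pi fun _ : Fin (N + 1) => expLaw)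
      = ∫ t, (∫ y, F (i.insertNth t y) ∂(Measure.pi fun _ : Fin N => expLaw)) ∂expLaw := by
  have mp := measurePreserving_piFinSuccAbove (fun _ : Fin (N + 1) => expLaw) i
  rw [← mp.symm.integral_comp', integral_prod]
  · rfl
  · exact (mp.symm.integrable_comp_emb (MeasurableEquiv.measurableEmbedding _)).mpr hF

/-- A bounded measurable function of a linear form is integrable for the product law. -/
lemma integrable_comp_linear_piExp (N : ℕ) (a : Fin N → ℝ) (G : ℝ → ℝ) (hG : Measurable G)
    (C : ℝ) (hC : ∀ y, |G y| ≤ C) (s : ℝ) :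
    Integrable (fun x : Fin N → ℝ => G (s + ∑ j, a j * x j))
      (Measure.pi fun _ : Fin N => expLaw) := by
  refine Integrable.mono' (integrable_const C) (hG.comp (by fun_prop)).aestronglyMeasurable
    (Filter.Eventually.of_forall fun x => ?_)
  rw [Real.norm_eq_abs]
  exact hC _

/-- Peeling coordinate `i` for a bounded measurable function of a linear form:
`E G(s + Σ_j a_j X_j) = ∫_{t>0} E G((s + a_i t) + Σ_{j≠i} a_j X_j) e^{-t} dt`. -/
theorem integral_piExp_linear_peel (N : ℕ) (i : Fin (N + 1)) (a : Fin (N + 1) → ℝ) (G : ℝ → ℝ)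
    (hG : Measurable G) (C : ℝ) (hC : ∀ y, |G y| ≤ C) (s : ℝ) :
    ∫ x, G (s + ∑ j, a j * x j) ∂(Measure.pi fun _ : Fin (N + 1) => expLaw)
      = ∫ t in Ioi (0 : ℝ),
          (∫ y, G ((s + a i * t) + ∑ j, a (i.succAbove j) * y j)
            ∂(Measure.pi fun _ : Fin N => expLaw)) * Real.exp (-t) := by
  rw [integral_piExp_succAbove N i _ (integrable_comp_linear_piExp (N + 1) a G hG C hC s),
    integral_expLaw]
  refine setIntegral_congr_fun measurableSet_Ioi (fun t _ => ?_)
  congr 1
  refine integral_congr_ae (Filter.Eventually.of_forall fun y => ?_)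
  show G (s + ∑ j, a j * Fin.insertNth (α := fun _ => ℝ) i t y j)
    = G (s + a i * t + ∑ j, a (i.succAbove j) * y j)
  rw [Fin.sum_univ_succAbove _ i]
  simp only [Fin.insertNth_apply_same, Fin.insertNth_apply_succAbove]
  rw [add_assoc]

/-- The base case: for `N = 0` the product law is a point mass. -/
theorem integral_piExp_zero (a : Fin 0 → ℝ) (G : ℝ → ℝ) (s : ℝ) :
    ∫ x, G (s + ∑ j, a j * x j) ∂(Measure.pi fun _ : Fin 0 => expLaw) = G s := by
  simp

end Crest.Agent.Helper4
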